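import Mathlib.Combinatorics.SimpleGraph.Connectivity.Connected
import Mathlib.Data.Set.Card
import Mathlib.Tactic

/-! Hubs of connected vertex sets (Wagner's theorem, row W-HUB), corrected form. -/

namespace Vale.Agent.P235.K5.H35

open Set

variable {V : Type*} {G : SimpleGraph V}

/-- `A` and `B` are joined by an edge. -/
def Tch (G : SimpleGraph V) (A B : Set V) : Prop := ∃ a ∈ A, ∃ b ∈ B, G.Adj a b

/-- nonempty connected vertex set, in cut form -/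
def CC (G : SimpleGraph V) (S : Set V) : Prop :=
  S.Nonempty ∧ ∀ T ⊆ S, T.Nonempty → T ≠ S → ∃ u ∈ T, ∃ v ∈ S \ T, G.Adj u v

theorem Tch.symm {A B : Set V} (h : Tch G A B) : Tch G B A := by
  obtain ⟨a, ha, b, hb, hab⟩ := h
  exact ⟨b, hb, a, ha, hab.symm⟩

theorem Tch.mono {A B A' B' : Set V} (h : Tch G A B) (hA : A ⊆ A') (hB : B ⊆ B') :
    Tch G A' B' := by
  obtain ⟨a, ha, b, hb, hab⟩ := h
  exact ⟨a, hA ha, b, hB hb, hab⟩

theorem cc_singleton (v : V) : CC G {v} := by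
  refine ⟨⟨v, rfl⟩, fun T hT hne hTne => ?_⟩
  obtain ⟨x, hx⟩ := hne
  have hxv : x = v := hT hx
  exact absurd (Subset.antisymm hT (by rintro y rfl; exact hxv ▸ hx)) hTne

theorem CC.exists_tch {X T : Set V} (hX : CC G X) (hT : T ⊆ X) (hne : T.Nonempty)
    (hne' : (X \ T).Nonempty) : Tch G T (X \ T) := by
  obtain ⟨u, hu, v, hv, h⟩ := hX.2 T hT hne (by
    rintro rfl
    obtain ⟨x, hx⟩ := hne'
    exact hx.2 hx.1)
  exact ⟨u, hu, v, hv, h⟩

theorem CC.union {A B : Set V} (hA : CC G A) (hB : CC G B)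
    (h : (A ∩ B).Nonempty ∨ Tch G A B) : CC G (A ∪ B) := by
  refine ⟨hA.1.mono subset_union_left, fun T hT hne hTne => ?_⟩
  obtain ⟨y, hy, hyT⟩ : ∃ y ∈ A ∪ B, y ∉ T := by
    by_contra hcon
    push Not at hcon
    exact hTne (Subset.antisymm hT hcon)
  by_cases hA1 : (T ∩ A).Nonempty
  · by_cases hA2 : A ⊆ T
    · -- `A ⊆ T`, so `B` is not contained in `T`
      have hyB : y ∈ B := by
        rcases hy with hy | hy
        · exact absurd (hA2 hy) hyT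
        · exact hy
      by_cases hB1 : (T ∩ B).Nonempty
      · obtain ⟨u, hu, v, hv, huv⟩ := hB.2 (T ∩ B) inter_subset_right hB1 (by
          intro h0
          exact hyT (h0.symm ▸ hyB : y ∈ T ∩ B).1)
        exact ⟨u, hu.1, v, ⟨Or.inr hv.1, fun hvT => hv.2 ⟨hvT, hv.1⟩⟩, huv⟩
      · rcases h with ⟨z, hzA, hzB⟩ | ⟨a, ha, b, hb, hab⟩
        · exact absurd ⟨z, hA2 hzA, hzB⟩ hB1
        · exact ⟨a, hA2 ha, b, ⟨Or.inr hb, fun hbT => hB1 ⟨b, hbT, hb⟩⟩, hab⟩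
    · obtain ⟨z, hzA, hzT⟩ := not_subset.1 hA2
      obtain ⟨u, hu, v, hv, huv⟩ := hA.2 (T ∩ A) inter_subset_right hA1 (by
        intro h0
        exact hzT (h0.symm ▸ hzA : z ∈ T ∩ A).1)
      exact ⟨u, hu.1, v, ⟨Or.inl hv.1, fun hvT => hv.2 ⟨hvT, hv.1⟩⟩, huv⟩
  · -- `T ∩ A = ∅`, so `T ⊆ B`
    have hTB : T ⊆ B := fun x hx => (hT hx).resolve_left fun hxA => hA1 ⟨x, hx, hxA⟩
    by_cases hBT : T = B
    · rcases h with ⟨z, hzA, hzB⟩ | ⟨a, ha, b, hb, hab⟩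
      · exact absurd ⟨z, hBT ▸ hzB, hzA⟩ hA1
      · exact ⟨b, hBT ▸ hb, a, ⟨Or.inl ha, fun haT => hA1 ⟨a, haT, ha⟩⟩, hab.symm⟩
    · obtain ⟨u, hu, v, hv, huv⟩ := hB.2 T hTB hne hBT
      exact ⟨u, hu, v, ⟨Or.inr hv.1, hv.2⟩, huv⟩

/-- the component of `C` in `S` -/
theorem exists_comp [Finite V] {S C : Set V} (hC : CC G C) (hCS : C ⊆ S) :
    ∃ K, C ⊆ K ∧ K ⊆ S ∧ CC G K ∧ ¬ Tch G K (S \ K) := by
  classical
  obtain ⟨K, hK, hmax⟩ := Set.Finite.exists_maximalFor' Set.ncard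
    {K : Set V | C ⊆ K ∧ K ⊆ S ∧ CC G K} (Set.toFinite _) ⟨C, Subset.rfl, hCS, hC⟩
  refine ⟨K, hK.1, hK.2.1, hK.2.2, ?_⟩
  rintro ⟨a, ha, b, hb, hab⟩
  have h1 : CC G (K ∪ {b}) := hK.2.2.union (cc_singleton b) (Or.inr ⟨a, ha, b, rfl, hab⟩)
  have h2 := hmax (j := K ∪ {b}) ⟨hK.1.trans subset_union_left,
    union_subset hK.2.1 (by rintro _ rfl; exact hb.1), h1⟩
    (Set.ncard_le_ncard subset_union_left (Set.toFinite _))
  have h3 : K.ncard < (K ∪ {b}).ncard := Set.ncard_lt_ncard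
    ⟨subset_union_left, fun h => hb.2 (h (Or.inr rfl))⟩ (Set.toFinite _)
  omega

/-- removing a component of `X \ {v}` -/
theorem cc_diff {X K : Set V} {v : V} (hX : CC G X) (hv : v ∈ X) (hK : CC G K)
    (hKX : K ⊆ X \ {v}) (hno : ¬ Tch G K ((X \ {v}) \ K)) : CC G (X \ K) ∧ Tch G K {v} := by
  have hvK : v ∉ K := fun h => (hKX h).2 rfl
  have key : ∀ T ⊆ X \ K, T.Nonempty → v ∉ T → ∃ u ∈ T, ∃ w ∈ (X \ K) \ T, G.Adj u w := by
    intro T hT hne hvT
    obtain ⟨u, hu, w, hw, huw⟩ := hX.2 T (hT.trans sdiff_subset) hne (by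
      rintro rfl
      exact hvT hv)
    refine ⟨u, hu, w, ⟨⟨hw.1, fun hwK => ?_⟩, hw.2⟩, huw⟩
    exact hno ⟨w, hwK, u, ⟨⟨(hT hu).1, fun h => hvT ((show u = v from h) ▸ hu)⟩, (hT hu).2⟩,
      huw.symm⟩
  refine ⟨⟨⟨v, hv, hvK⟩, fun T hT hne hTne => ?_⟩, ?_⟩
  · by_cases hvT : v ∈ T
    · obtain ⟨y, hy, hyT⟩ : ∃ y ∈ X \ K, y ∉ T := by
        by_contra hcon
        push Not at hcon
        exact hTne (Subset.antisymm hT hcon)
      obtain ⟨u, hu, w, hw, huw⟩ := key ((X \ K) \ T) sdiff_subset ⟨y, hy, hyT⟩ fun h => h.2 hvT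
      refine ⟨w, ?_, u, hu, huw.symm⟩
      by_contra hwT
      exact hw.2 ⟨hw.1, hwT⟩
    · exact key T hT hne hvT
  · obtain ⟨u, hu, w, hw, huw⟩ := hX.2 K (hKX.trans sdiff_subset) hK.1 (by
      rintro rfl
      exact hvK hv)
    by_cases hwv : w = v
    · exact ⟨u, hu, v, rfl, hwv ▸ huw⟩
    · exact absurd ⟨u, hu, w, ⟨⟨hw.1, hwv⟩, hw.2⟩, huw⟩ hno

/-- **Hub lemma.** If each split of `X` into two connected sets has a light side, then there is
a vertex all whose branches are light, or `X` is the union of three pairwise adjacent light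
connected sets. -/
theorem hub [Finite V] {X : Set V} (hX : CC G X) (Light : Set V → Prop)
    (hmono : ∀ P Q, P ⊆ Q → Light Q → Light P)
    (hsplit : ∀ P Q, P ∪ Q = X → Disjoint P Q → CC G P → CC G Q → Light P ∨ Light Q) :
    (∃ h ∈ X, ∀ C ⊆ X \ {h}, CC G C → Light C) ∨
    ∃ A B C, A ∪ B ∪ C = X ∧ Disjoint A B ∧ Disjoint (A ∪ B) C ∧ CC G A ∧ CC G B ∧ CC G C ∧
      CC G (A ∪ B) ∧ Tch G A B ∧ Tch G B C ∧ Tch G A C ∧ Light A ∧ Light B ∧ Light C ∧
      ¬ Light (A ∪ B) := by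
  classical
  by_cases hex : ∃ P ⊆ X, CC G P ∧ CC G (X \ P) ∧ ¬ Light P
  · obtain ⟨P, ⟨hPX, hP, hQ, hPL⟩, hmin⟩ := Set.Finite.exists_minimalFor' Set.ncard
      {P : Set V | P ⊆ X ∧ CC G P ∧ CC G (X \ P) ∧ ¬ Light P} (Set.toFinite _)
      (by obtain ⟨P, h⟩ := hex; exact ⟨P, h⟩)
    have hlt : ∀ K, K ⊆ P → K ≠ P → CC G K → CC G (X \ K) → Light K := by
      intro K hKP hne hK hK'
      by_contra hL
      have h1 := hmin (j := K) ⟨hKP.trans hPX, hK, hK', hL⟩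
        (Set.ncard_le_ncard hKP (Set.toFinite _))
      have h2 : K.ncard < P.ncard := Set.ncard_lt_ncard (hKP.ssubset_of_ne hne) (Set.toFinite _)
      omega
    have hQL : Light (X \ P) := by
      rcases hsplit P (X \ P) (union_sdiff_cancel hPX) disjoint_sdiff_right hP hQ with h | h
      · exact absurd h hPL
      · exact h
    obtain ⟨v, hv, w, hw, hvw⟩ := hX.exists_tch hPX hP.1 hQ.1
    -- components of `P \ {v}`
    have comp : ∀ K, CC G K → K ⊆ P \ {v} → ¬ Tch G K ((P \ {v}) \ K) →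
        CC G (P \ K) ∧ Tch G K {v} ∧ CC G (X \ K) ∧ Light K := by
      intro K hK hKP hno
      obtain ⟨h1, h2⟩ := cc_diff hP hv hK hKP hno
      have hvK : v ∉ K := fun h => (hKP h).2 rfl
      have h3 : X \ K = (P \ K) ∪ (X \ P) := by
        ext x
        constructor
        · rintro ⟨hx, hxK⟩
          by_cases hxP : x ∈ P
          · exact Or.inl ⟨hxP, hxK⟩
          · exact Or.inr ⟨hx, hxP⟩
        · rintro (⟨hx, hxK⟩ | ⟨hx, hxP⟩)
          · exact ⟨hPX hx, hxK⟩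
          · exact ⟨hx, fun h => hxP (hKP h).1⟩
      have h4 : CC G (X \ K) := by
        rw [h3]
        exact h1.union hQ (Or.inr ⟨v, ⟨hv, hvK⟩, w, hw, hvw⟩)
      exact ⟨h1, h2, h4, hlt K (hKP.trans sdiff_subset) (by rintro rfl; exact hvK hv) hK h4⟩
    by_cases hK : ∃ K, CC G K ∧ K ⊆ P \ {v} ∧ ¬ Tch G K ((P \ {v}) \ K) ∧ Tch G K (X \ P)
    · right
      obtain ⟨K, hK, hKP, hno, hKQ⟩ := hK
      obtain ⟨h1, h2, h3, h4⟩ := comp K hK hKP hno
      have hvK : v ∉ K := fun h => (hKP h).2 rfl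
      have hKP' : K ⊆ P := hKP.trans sdiff_subset
      have h5 : (P \ K) ∪ K = P := sdiff_union_of_subset hKP'
      have h6 : Light (P \ K) := by
        refine hlt _ sdiff_subset ?_ h1 ?_
        · intro h
          obtain ⟨x, hx⟩ := hK.1
          exact (h.symm ▸ hKP' hx : x ∈ P \ K).2 hx
        · have h7 : X \ (P \ K) = K ∪ (X \ P) := by
            ext x
            constructor
            · rintro ⟨hx, hxK⟩
              by_cases hxP : x ∈ P
              · left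
                by_contra hxK'
                exact hxK ⟨hxP, hxK'⟩
              · exact Or.inr ⟨hx, hxP⟩
            · rintro (hx | ⟨hx, hxP⟩)
              · exact ⟨hPX (hKP' hx), fun h => h.2 hx⟩
              · exact ⟨hx, fun h => hxP h.1⟩
          rw [h7]
          exact hK.union hQ (Or.inr hKQ)
      refine ⟨P \ K, K, X \ P, ?_, disjoint_sdiff_left, ?_, h1, hK, hQ, ?_, ?_, hKQ, ?_, h6, h4,
        hQL, ?_⟩
      · rw [h5, union_sdiff_cancel hPX]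
      · rw [h5]; exact disjoint_sdiff_right
      · rw [h5]; exact hP
      · exact h2.symm.mono (by rintro _ rfl; exact ⟨hv, hvK⟩) Subset.rfl
      · exact ⟨v, ⟨hv, hvK⟩, w, hw, hvw⟩
      · rw [h5]; exact hPL
    · left
      refine ⟨v, hPX hv, fun C hC hCC => ?_⟩
      -- no edge between `P \ {v}` and `X \ P`
      have hnoe : ∀ x ∈ P \ {v}, ∀ y ∈ X \ P, ¬ G.Adj x y := by
        intro x hx y hy hxy
        obtain ⟨K, hxK, hKS, hKC, hKno⟩ := exists_comp (S := P \ {v}) (cc_singleton x)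
          (by rintro _ rfl; exact hx)
        exact hK ⟨K, hKC, hKS, hKno, x, hxK rfl, y, hy, hxy⟩
      by_cases h1 : (C ∩ P).Nonempty
      · have h2 : C ⊆ P := by
          by_contra h2
          obtain ⟨a, ha, b, hb, hab⟩ := hCC.2 (C ∩ P) inter_subset_left h1 (by
            intro h0
            exact h2 (h0 ▸ inter_subset_right))
          exact hnoe a ⟨ha.2, (hC ha.1).2⟩ b ⟨(hC hb.1).1, fun hbP => hb.2 ⟨hb.1, hbP⟩⟩ hab
        obtain ⟨K, hCK, hKS, hKC, hKno⟩ := exists_comp (S := P \ {v}) hCC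
          (fun x hx => ⟨h2 hx, (hC hx).2⟩)
        exact hmono _ _ hCK (comp K hKC hKS hKno).2.2.2
      · exact hmono C (X \ P) (fun x hx => ⟨(hC hx).1, fun hxP => h1 ⟨x, hx, hxP⟩⟩) hQL
  · left
    obtain ⟨v, hv⟩ := hX.1
    refine ⟨v, hv, fun C hC hCC => ?_⟩
    obtain ⟨K, hCK, hKS, hKC, hKno⟩ := exists_comp (S := X \ {v}) hCC hC
    refine hmono _ _ hCK ?_
    by_contra hL
    exact hex ⟨K, hKS.trans sdiff_subset, hKC, (cc_diff hX hv hKC hKS hKno).1, hL⟩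

end Vale.Agent.P235.K5.H35
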